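import Mathlib
import Vale.Agent.Lib.P137.Defs

namespace Vale.Agent.Lib.P137.H47

open Vale.Agent.Lib.P137 MeasureTheory Metric
open scoped ENNReal

/-- explicit formula for the reflection in the hyperplane orthogonal to `u` -/
theorem jA_refl_apply {d : ℕ} (u w : Sp d) :
    (Submodule.span ℝ {u})ᗮ.reflection w = w - (2 * (inner ℝ u w / ‖u‖ ^ 2)) • u := by
  rw [Submodule.reflection_orthogonal_apply, Submodule.reflection_singleton_apply]
  simp only [RCLike.ofReal_real_eq_id, id_eq]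
  rw [neg_sub, two_nsmul, ← add_smul]
  congr 2
  ring

/-- The reflection in the perpendicular bisector of `x` and `y` does not increase the norm of
points that are at least as close to `y` as to `x`, when `‖x‖ ≤ ‖y‖`. -/
theorem jA_norm_refl_le {d : ℕ} (x y z : Sp d) (hne : x ≠ y) (hxy : ‖x‖ ≤ ‖y‖)
    (hz : dist z y ≤ dist z x) :
    ‖(Submodule.span ℝ {y - x})ᗮ.reflection (z + -((1 / 2 : ℝ) • (x + y))) + (1 / 2 : ℝ) • (x + y)‖
      ≤ ‖z‖ := by
  have hu0 : y - x ≠ 0 := sub_ne_zero.mpr (Ne.symm hne)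
  have hupos : 0 < ‖y - x‖ ^ 2 := by positivity
  have hform : (Submodule.span ℝ {y - x})ᗮ.reflection (z + -((1 / 2 : ℝ) • (x + y)))
        + (1 / 2 : ℝ) • (x + y)
      = z - (2 * (inner ℝ (y - x) (z + -((1 / 2 : ℝ) • (x + y))) / ‖y - x‖ ^ 2)) • (y - x) := by
    rw [jA_refl_apply]; abel
  have h1 : 0 ≤ inner ℝ (y - x) (z + -((1 / 2 : ℝ) • (x + y))) := by
    have hx' : z - x = (z + -((1 / 2 : ℝ) • (x + y))) + (1 / 2 : ℝ) • (y - x) := by module
    have hy' : z - y = (z + -((1 / 2 : ℝ) • (x + y))) - (1 / 2 : ℝ) • (y - x) := by module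
    have e1 := norm_add_sq_real (z + -((1 / 2 : ℝ) • (x + y))) ((1 / 2 : ℝ) • (y - x))
    have e2 := norm_sub_sq_real (z + -((1 / 2 : ℝ) • (x + y))) ((1 / 2 : ℝ) • (y - x))
    rw [← hx'] at e1
    rw [← hy'] at e2
    have e3 : inner ℝ (z + -((1 / 2 : ℝ) • (x + y))) ((1 / 2 : ℝ) • (y - x))
        = (1 / 2) * inner ℝ (y - x) (z + -((1 / 2 : ℝ) • (x + y))) := by
      rw [real_inner_smul_right, real_inner_comm]
    have hd : ‖z - y‖ ^ 2 ≤ ‖z - x‖ ^ 2 := by
      rw [← dist_eq_norm, ← dist_eq_norm]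
      exact pow_le_pow_left₀ dist_nonneg hz 2
    nlinarith
  have h2 : 0 ≤ inner ℝ (y - x) ((1 / 2 : ℝ) • (x + y)) := by
    have e : inner ℝ (y - x) ((1 / 2 : ℝ) • (x + y)) = (‖y‖ ^ 2 - ‖x‖ ^ 2) / 2 := by
      rw [real_inner_smul_right, inner_sub_left, inner_add_right, inner_add_right,
        real_inner_self_eq_norm_sq, real_inner_self_eq_norm_sq, real_inner_comm x y]
      ring
    rw [e]
    have : ‖x‖ ^ 2 ≤ ‖y‖ ^ 2 := pow_le_pow_left₀ (norm_nonneg x) hxy 2
    linarith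
  rw [hform]
  set s : ℝ := inner ℝ (y - x) (z + -((1 / 2 : ℝ) • (x + y))) / ‖y - x‖ ^ 2 with hs
  have hs0 : 0 ≤ s := div_nonneg h1 hupos.le
  have hsu : s * ‖y - x‖ ^ 2 = inner ℝ (y - x) (z + -((1 / 2 : ℝ) • (x + y))) := by
    rw [hs]; field_simp
  have hsplit : inner ℝ (y - x) (z + -((1 / 2 : ℝ) • (x + y)))
      = inner ℝ z (y - x) - inner ℝ (y - x) ((1 / 2 : ℝ) • (x + y)) := by
    rw [inner_add_right, inner_neg_right, real_inner_comm z (y - x)]
    ring
  have h3 : ‖z - (2 * s) • (y - x)‖ ^ 2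
      = ‖z‖ ^ 2 - 4 * s * inner ℝ (y - x) ((1 / 2 : ℝ) • (x + y)) := by
    rw [norm_sub_sq_real, norm_smul, real_inner_smul_right, Real.norm_eq_abs, mul_pow, sq_abs]
    nlinarith
  have h4 : ‖z - (2 * s) • (y - x)‖ ^ 2 ≤ ‖z‖ ^ 2 := by
    rw [h3]; nlinarith [mul_nonneg hs0 h2]
  exact (sq_le_sq₀ (norm_nonneg _) (norm_nonneg _)).mp h4

theorem ball_lintegral_le {d : ℕ} (F : ℝ → ENNReal) (hF : Antitone F) (x y : Sp d)
    (hxy : ‖x‖ ≤ ‖y‖) (r : ℝ) :
    ∫⁻ z in ball y r, F ‖z‖ ≤ ∫⁻ z in ball x r, F ‖z‖ := by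
  by_cases hne : x = y
  · rw [hne]
  have hG : Measurable (fun z : Sp d => F ‖z‖) := hF.measurable.comp measurable_norm
  obtain ⟨σ, hσ⟩ : ∃ σ : Sp d → Sp d, σ = fun z =>
      (Submodule.span ℝ {y - x})ᗮ.reflection (z + -((1 / 2 : ℝ) • (x + y))) + (1 / 2 : ℝ) • (x + y) :=
    ⟨_, rfl⟩
  have hmp : MeasurePreserving σ volume volume := by
    have h1 : MeasurePreserving (fun z : Sp d => z + -((1 / 2 : ℝ) • (x + y))) volume volume :=
      measurePreserving_add_right volume _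
    have h2 : MeasurePreserving ((Submodule.span ℝ {y - x})ᗮ.reflection) volume volume :=
      LinearIsometryEquiv.measurePreserving _
    have h3 : MeasurePreserving (fun z : Sp d => z + (1 / 2 : ℝ) • (x + y)) volume volume :=
      measurePreserving_add_right volume _
    rw [hσ]
    exact h3.comp (h2.comp h1)
  have hRu : (Submodule.span ℝ {y - x})ᗮ.reflection (y - x) = -(y - x) :=
    Submodule.reflection_orthogonalComplement_singleton_eq_neg (y - x)
  have hσx : σ x = y := by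
    rw [hσ]
    show (Submodule.span ℝ {y - x})ᗮ.reflection (x + -((1 / 2 : ℝ) • (x + y)))
      + (1 / 2 : ℝ) • (x + y) = y
    have e : x + -((1 / 2 : ℝ) • (x + y)) = (-(1 / 2 : ℝ)) • (y - x) := by module
    rw [e, map_smul, hRu]
    module
  have hσy : σ y = x := by
    rw [hσ]
    show (Submodule.span ℝ {y - x})ᗮ.reflection (y + -((1 / 2 : ℝ) • (x + y)))
      + (1 / 2 : ℝ) • (x + y) = x
    have e : y + -((1 / 2 : ℝ) • (x + y)) = (1 / 2 : ℝ) • (y - x) := by module
    rw [e, map_smul, hRu]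
    module
  have hiso : ∀ z w, dist (σ z) (σ w) = dist z w := by
    intro z w
    rw [hσ]
    show dist ((Submodule.span ℝ {y - x})ᗮ.reflection (z + -((1 / 2 : ℝ) • (x + y)))
        + (1 / 2 : ℝ) • (x + y))
      ((Submodule.span ℝ {y - x})ᗮ.reflection (w + -((1 / 2 : ℝ) • (x + y)))
        + (1 / 2 : ℝ) • (x + y)) = dist z w
    rw [dist_add_right, LinearIsometryEquiv.dist_map, dist_add_right]
  have hpre : σ ⁻¹' (ball x r \ ball y r) = ball y r \ ball x r := by
    ext z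
    have e1 : dist (σ z) x = dist z y := by
      calc dist (σ z) x = dist (σ z) (σ y) := by rw [hσy]
        _ = dist z y := hiso z y
    have e2 : dist (σ z) y = dist z x := by
      calc dist (σ z) y = dist (σ z) (σ x) := by rw [hσx]
        _ = dist z x := hiso z x
    simp only [Set.mem_preimage, Set.mem_sdiff, mem_ball, e1, e2]
  have hkey : ∀ z : Sp d, dist z y ≤ dist z x → ‖σ z‖ ≤ ‖z‖ := by
    intro z hz
    rw [hσ]
    exact jA_norm_refl_le x y z hne hxy hz
  have hD : ∫⁻ z in ball y r \ ball x r, F ‖z‖ ≤ ∫⁻ z in ball x r \ ball y r, F ‖z‖ := by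
    calc ∫⁻ z in ball y r \ ball x r, F ‖z‖
        ≤ ∫⁻ z in ball y r \ ball x r, F ‖σ z‖ := by
          apply setLIntegral_mono' (measurableSet_ball.diff measurableSet_ball)
          intro z hz
          apply hF
          apply hkey
          have h1 : dist z y < r := mem_ball.mp hz.1
          have h2 : r ≤ dist z x := not_lt.mp (fun h => hz.2 (mem_ball.mpr h))
          linarith
      _ = ∫⁻ z in σ ⁻¹' (ball x r \ ball y r), F ‖σ z‖ := by rw [hpre]
      _ = ∫⁻ w in ball x r \ ball y r, F ‖w‖ :=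
          hmp.setLIntegral_comp_preimage (measurableSet_ball.diff measurableSet_ball) hG
  calc ∫⁻ z in ball y r, F ‖z‖
      = (∫⁻ z in ball y r ∩ ball x r, F ‖z‖) + ∫⁻ z in ball y r \ ball x r, F ‖z‖ :=
        (lintegral_inter_add_sdiff (μ := volume) (B := ball x r) (fun z : Sp d => F ‖z‖) (ball y r)
          measurableSet_ball).symm
    _ ≤ (∫⁻ z in ball y r ∩ ball x r, F ‖z‖) + ∫⁻ z in ball x r \ ball y r, F ‖z‖ := by
        gcongr
    _ = (∫⁻ z in ball x r ∩ ball y r, F ‖z‖) + ∫⁻ z in ball x r \ ball y r, F ‖z‖ := by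
        rw [Set.inter_comm]
    _ = ∫⁻ z in ball x r, F ‖z‖ :=
        lintegral_inter_add_sdiff (μ := volume) (B := ball y r) (fun z : Sp d => F ‖z‖) (ball x r)
          measurableSet_ball

end Vale.Agent.Lib.P137.H47
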